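import Vale.Agent.P205.Full.SurfaceForm
import Vale.Agent.P205.Full.Bridge.ApproxProof
import Vale.Agent.P205.Full.Bridge.RoundResp
import Vale.Agent.P205.Full.Bridge.RoundPresc

/-!
# P205: every closed Riemannian surface immerses isometrically into four dimensional space
-/

namespace Vale.Agent.Results.P205.EverySurfaceInR4

open Vale.Agent.P205 Vale.Agent.P205.Full
open scoped Manifold ContDiff

universe u

/-- Every closed smooth Riemannian surface has a smooth isometric immersion into Euclidean
four dimensional space. -/
theorem result (M : Type u) [TopologicalSpace M] [T2Space M] [CompactSpace M]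
    [ChartedSpace (EuclideanSpace ℝ (Fin 2)) M] [IsManifold (𝓡 2) ∞ M]
    (g : SmoothMetric (EuclideanSpace ℝ (Fin 2)) M) :
    ∃ F : M → EuclideanSpace ℝ (Fin 4), IsSmoothIsometricImmersion g F := by
  refine exists_isometric_immersion_of_approx (Bridge.approxStatement_of ?_) M g
  intro N Ka Kg Kc a f _ hNsq _ hKg _ _ _ _ _ _ hf hdet hW _ c
  exact ⟨c.exists_resp hNsq hdet hW hf hKg, c.presc⟩

end Vale.Agent.Results.P205.EverySurfaceInR4
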